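import Vale.Agent.P062.Bdl.B1

set_option linter.all false

/-! Maker wins Snaky inside a finite board: semantics. -/

namespace Vale.Agent.P062.FB

/-- Maker, to move at the position with Maker cells `M` and Breaker cells `B`, owns a copy or can
force to own one with claims inside `R` only (Breaker may claim any cells). -/
inductive MWR (R : Set Cell) : Finset Cell → Finset Cell → Prop
  | done {M B : Finset Cell} (T : Finset Cell) (hT : IsCopy T) (hs : T ⊆ M) : MWR R M B
  | step {M B : Finset Cell} (x : Cell) (hR : x ∈ R) (hM : x ∉ M) (hB : x ∉ B)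
      (h : ∀ y : Cell, y ∉ insert x M → y ∉ B → MWR R (insert x M) (insert y B)) : MWR R M B

/-- strategy form relative to a position -/
def StratWin (R : Set Cell) (M B : Finset Cell) (σ : Strategy) : Prop :=
  ∀ b : ℕ → Cell, (∀ n, b n ∉ M ∧ b n ∉ B ∧ BreakerLegal σ b n) →
    ∃ n : ℕ, (∀ k < n, makerClaim σ b k ∈ R ∧ makerClaim σ b k ∉ M ∧ makerClaim σ b k ∉ B ∧
        MakerLegal σ b k) ∧
      ∃ T : Finset Cell, IsCopy T ∧ ∀ c ∈ T, c ∈ M ∨ ∃ k < n, makerClaim σ b k = c

theorem exists_strat {R : Set Cell} {M B : Finset Cell} (h : MWR R M B) :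
    ∃ σ, StratWin R M B σ := by
  induction h with
  | @done M B T hT hs =>
    exact ⟨fun _ => (0, 0), fun b _ => ⟨0, fun k hk => absurd hk (Nat.not_lt_zero k), T, hT,
      fun c hc => Or.inl (hs hc)⟩⟩
  | @step M B x hR hM hB h ih =>
    classical
    have ih' : ∀ y : Cell, ∃ σ : Strategy, (y ∉ insert x M → y ∉ B →
        StratWin R (insert x M) (insert y B) σ) := by
      intro y
      by_cases h1 : y ∉ insert x M
      · by_cases h2 : y ∉ B
        · obtain ⟨σ, hσ⟩ := ih y h1 h2
          exact ⟨σ, fun _ _ => hσ⟩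
        · exact ⟨fun _ => x, fun _ h => absurd h h2⟩
      · exact ⟨fun _ => x, fun h => absurd h h1⟩
    choose F hF using ih'
    let σ : Strategy := fun l => match l with
      | [] => x
      | y :: l' => F y l'
    refine ⟨σ, ?_⟩
    intro b hb
    have h0 : makerClaim σ b 0 = x := by simp [makerClaim, σ]
    have hsucc : ∀ n, makerClaim σ b (n + 1) = makerClaim (F (b 0)) (fun k => b (k + 1)) n := by
      intro n
      simp only [makerClaim, σ, List.range_succ_eq_map, List.map_cons, List.map_map]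
      rfl
    have hb0 := hb 0
    have hy1 : b 0 ∉ insert x M := by
      rw [Finset.mem_insert, not_or]
      refine ⟨?_, hb0.1⟩
      have := hb0.2.2.1 0 le_rfl
      rwa [h0] at this
    have hy2 : b 0 ∉ B := hb0.2.1
    have key := hF (b 0) hy1 hy2 (fun k => b (k + 1)) (by
      intro n
      have hn := hb (n + 1)
      refine ⟨?_, ?_, ?_, ?_⟩
      · rw [Finset.mem_insert, not_or]
        refine ⟨?_, hn.1⟩
        have := hn.2.2.1 0 (Nat.zero_le _)
        rwa [h0] at this
      · rw [Finset.mem_insert, not_or]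
        exact ⟨hn.2.2.2 0 (Nat.succ_pos _), hn.2.1⟩
      · intro k hk
        have := hn.2.2.1 (k + 1) (by omega)
        rwa [hsucc] at this
      · intro k hk
        exact hn.2.2.2 (k + 1) (by omega))
    obtain ⟨n, hn1, T, hT, hn2⟩ := key
    refine ⟨n + 1, ?_, T, hT, ?_⟩
    · intro k hk
      rcases k with _ | k
      · rw [h0]
        refine ⟨hR, hM, hB, ?_⟩
        intro j hj
        omega
      · have hk' := hn1 k (by omega)
        rw [hsucc]
        simp only [Finset.mem_insert, not_or] at hk'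
        refine ⟨hk'.1, hk'.2.1.2, hk'.2.2.1.2, ?_⟩
        intro j hj
        rcases j with _ | j
        · rw [hsucc, h0]
          exact ⟨hk'.2.1.1, hk'.2.2.1.1⟩
        · rw [hsucc, hsucc]
          exact hk'.2.2.2 j (by omega)
    · intro c hc
      rcases hn2 c hc with h | ⟨k, hk, hk2⟩
      · rcases Finset.mem_insert.1 h with h | h
        · exact Or.inr ⟨0, Nat.succ_pos _, by rw [h0, h]⟩
        · exact Or.inl h
      · exact Or.inr ⟨k + 1, by omega, by rw [hsucc, hk2]⟩

/-- Breaker is to move, Maker owns `C`, no cell of `W` is owned by Breaker, Breaker's next claim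
avoids `I`: Maker wins inside every board that contains `C` and `W`. -/
def Part (C W I : Set Cell) : Prop :=
  (∃ T : Finset Cell, IsCopy T ∧ ∀ c ∈ T, c ∈ C ∨ c ∈ W) ∧
  ∀ R : Set Cell, C ⊆ R → W ⊆ R →
  ∀ M B : Finset Cell, Disjoint M B → (∀ c ∈ C, c ∈ M) → (∀ c ∈ W, c ∉ B) →
    ∀ y : Cell, y ∉ M → y ∉ B → y ∉ I → MWR R M (insert y B)

theorem Part.mono {C W I C' W' I' : Set Cell} (h : Part C W I) (hC : C ⊆ C') (hW : W ⊆ W')
    (hI : I ⊆ I') : Part C' W' I' := by
  obtain ⟨⟨T, hT, hT2⟩, h⟩ := h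
  refine ⟨⟨T, hT, fun c hc => (hT2 c hc).imp (fun h => hC h) (fun h => hW h)⟩, ?_⟩
  intro R hR1 hR2 M B hd h1 h2 y hyM hyB hyI
  exact h R (hC.trans hR1) (hW.trans hR2) M B hd (fun c hc => h1 c (hC hc))
    (fun c hc => h2 c (hW hc)) y hyM hyB (fun h => hyI (hI h))

theorem Part.finish {C W I : Set Cell} (h : Part C W I) (hI : I ⊆ C) : Part C W ∅ :=
  ⟨h.1, fun R hR1 hR2 M B hd h1 h2 y hyM hyB _ =>
    h.2 R hR1 hR2 M B hd h1 h2 y hyM hyB (fun hy => hyM (h1 y (hI hy)))⟩

theorem Part.merge {C W I C' W' I' : Set Cell} (h : Part C W I) (h' : Part C' W' I') :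
    Part (C ∪ C') (W ∪ W') (I ∩ I') := by
  obtain ⟨⟨T, hT, hT2⟩, h⟩ := h
  refine ⟨⟨T, hT, fun c hc => (hT2 c hc).imp Or.inl Or.inl⟩, ?_⟩
  intro R hR1 hR2 M B hd h1 h2 y hyM hyB hyI
  by_cases hy : y ∈ I
  · exact h'.2 R (fun c hc => hR1 (Or.inr hc)) (fun c hc => hR2 (Or.inr hc)) M B hd
      (fun c hc => h1 c (Or.inr hc)) (fun c hc => h2 c (Or.inr hc)) y hyM hyB
      (fun h => hyI ⟨hy, h⟩)
  · exact h R (fun c hc => hR1 (Or.inl hc)) (fun c hc => hR2 (Or.inl hc)) M B hd
      (fun c hc => h1 c (Or.inl hc)) (fun c hc => h2 c (Or.inl hc)) y hyM hyB hy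

theorem Part.copy {S : Set Cell} {T : Finset Cell} (hT : IsCopy T) (hS : ∀ c ∈ T, c ∈ S) :
    Part S S ∅ :=
  ⟨⟨T, hT, fun c hc => Or.inl (hS c hc)⟩, fun R _ _ M B _ h1 _ y _ _ _ =>
    MWR.done T hT fun c hc => h1 c (hS c hc)⟩

/-- Maker answers by claiming `x`. -/
theorem Part.reply {C W : Set Cell} (h : Part C W ∅) (x : Cell) :
    Part (C \ {x}) (W ∪ {x}) (W ∪ {x}) := by
  obtain ⟨⟨T, hT, hT2⟩, h⟩ := h
  refine ⟨⟨T, hT, fun c hc => ?_⟩, ?_⟩
  · rcases hT2 c hc with h3 | h3
    · by_cases hcx : c = x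
      · exact Or.inr (Or.inr hcx)
      · exact Or.inl ⟨h3, hcx⟩
    · exact Or.inr (Or.inl h3)
  intro R hR1 hR2 M B hd h1 h2 y hyM hyB hyI
  have hxR : x ∈ R := hR2 (Or.inr rfl)
  have hCR : C ⊆ R := by
    intro c hc
    by_cases hcx : c = x
    · rw [hcx]; exact hxR
    · exact hR1 ⟨hc, hcx⟩
  have hWR : W ⊆ R := fun c hc => hR2 (Or.inl hc)
  have hxy : x ≠ y := fun h => hyI (Or.inr (by simp [h]))
  have hyW : y ∉ W := fun h => hyI (Or.inl h)
  have hxB : x ∉ B := h2 x (Or.inr rfl)
  by_cases hx : x ∈ M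
  · by_cases hfree : ∃ z ∈ R, z ∉ M ∪ insert y B
    · obtain ⟨z, hzR, hz⟩ := hfree
      rw [Finset.mem_union, not_or] at hz
      refine MWR.step z hzR hz.1 hz.2 (fun y' hy1 hy2 => ?_)
      refine h R hCR hWR (insert z M) (insert y B) ?_ ?_ ?_ y' hy1 hy2 (fun h => h.elim)
      · rw [Finset.disjoint_insert_left]
        refine ⟨hz.2, ?_⟩
        rw [Finset.disjoint_insert_right]
        exact ⟨hyM, hd⟩
      · intro c hc
        by_cases hcx : c = x
        · exact Finset.mem_insert_of_mem (hcx ▸ hx)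
        · exact Finset.mem_insert_of_mem (h1 c ⟨hc, hcx⟩)
      · intro c hc hcB
        rcases Finset.mem_insert.1 hcB with h | h
        · exact hyW (h ▸ hc)
        · exact h2 c (Or.inl hc) h
    · push Not at hfree
      refine MWR.done T hT fun c hc => ?_
      rcases hT2 c hc with h3 | h3
      · by_cases hcx : c = x
        · exact hcx ▸ hx
        · exact h1 c ⟨h3, hcx⟩
      · have h4 := hfree c (hWR h3)
        rcases Finset.mem_union.1 h4 with h5 | h5
        · exact h5
        · exfalso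
          rcases Finset.mem_insert.1 h5 with h6 | h6
          · exact hyW (h6 ▸ h3)
          · exact h2 c (Or.inl h3) h6
  · refine MWR.step x hxR hx ?_ (fun y' hy1 hy2 => ?_)
    · rw [Finset.mem_insert, not_or]
      exact ⟨hxy, hxB⟩
    · refine h R hCR hWR (insert x M) (insert y B) ?_ ?_ ?_ y' hy1 hy2 (fun h => h.elim)
      · rw [Finset.disjoint_insert_left]
        refine ⟨?_, ?_⟩
        · rw [Finset.mem_insert, not_or]
          exact ⟨hxy, hxB⟩
        · rw [Finset.disjoint_insert_right]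
          exact ⟨hyM, hd⟩
      · intro c hc
        by_cases hcx : c = x
        · rw [hcx]; exact Finset.mem_insert_self _ _
        · exact Finset.mem_insert_of_mem (h1 c ⟨hc, hcx⟩)
      · intro c hc hcB
        rcases Finset.mem_insert.1 hcB with h | h
        · exact hyW (h ▸ hc)
        · exact h2 c (Or.inl hc) h

theorem MWR.iso (g : IsoB) {R : Set Cell} {M B : Finset Cell} (h : MWR R M B) :
    MWR (g.e '' R) (M.map g.e.toEmbedding) (B.map g.e.toEmbedding) := by
  induction h with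
  | @done M B T hT hs =>
    exact MWR.done (T.map g.e.toEmbedding) (g.copy T hT) (Finset.map_subset_map.2 hs)
  | @step M B x hR hM hB h ih =>
    refine MWR.step (g.e x) ⟨x, hR, rfl⟩ (by simpa using hM) (by simpa using hB)
      (fun y hy1 hy2 => ?_)
    have h1 : g.e.symm y ∉ insert x M := by
      intro hc
      apply hy1
      rw [Finset.mem_insert] at hc ⊢
      rcases hc with hc | hc
      · left; rw [← hc]; simp
      · right
        rw [Finset.mem_map]
        exact ⟨g.e.symm y, hc, by simp⟩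
    have h2 : g.e.symm y ∉ B := by
      intro hc
      apply hy2
      rw [Finset.mem_map]
      exact ⟨g.e.symm y, hc, by simp⟩
    have := ih (g.e.symm y) h1 h2
    rw [Finset.map_insert, Finset.map_insert] at this
    simpa using this

theorem Part.iso (g : IsoB) {C W : Set Cell} (h : Part C W ∅) (ginv : IsoB)
    (hg : ∀ c, ginv.e (g.e c) = c) (hg' : ∀ c, g.e (ginv.e c) = c) :
    Part (g.e '' C) (g.e '' W) ∅ := by
  obtain ⟨⟨T, hT, hT2⟩, h⟩ := h
  refine ⟨⟨T.map g.e.toEmbedding, g.copy T hT, fun c hc => ?_⟩, ?_⟩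
  · rw [Finset.mem_map] at hc
    obtain ⟨d, hd, rfl⟩ := hc
    exact (hT2 d hd).imp (fun h => ⟨d, h, rfl⟩) (fun h => ⟨d, h, rfl⟩)
  intro R hR1 hR2 M B hd h1 h2 y hyM hyB _
  have key := h (ginv.e '' R)
    (fun c hc => ⟨g.e c, hR1 ⟨c, hc, rfl⟩, hg c⟩)
    (fun c hc => ⟨g.e c, hR2 ⟨c, hc, rfl⟩, hg c⟩)
    (M.map ginv.e.toEmbedding) (B.map ginv.e.toEmbedding)
    ((Finset.disjoint_map _).2 hd)
    (fun c hc => by
      rw [Finset.mem_map]
      exact ⟨g.e c, h1 _ ⟨c, hc, rfl⟩, hg c⟩)
    (fun c hc hcB => by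
      rw [Finset.mem_map] at hcB
      obtain ⟨d, hd, hdc⟩ := hcB
      apply h2 (g.e c) ⟨c, hc, rfl⟩
      rw [← hdc]
      change g.e (ginv.e d) ∈ B
      rw [hg']
      exact hd)
    (ginv.e y)
    (by
      rw [Finset.mem_map]
      rintro ⟨d, hd, hdc⟩
      exact hyM ((ginv.e.injective hdc) ▸ hd))
    (by
      rw [Finset.mem_map]
      rintro ⟨d, hd, hdc⟩
      exact hyB ((ginv.e.injective hdc) ▸ hd))
    (fun h => h.elim)
  have := MWR.iso g key
  rw [Finset.map_insert] at this
  have e1 : ∀ S : Finset Cell, (S.map ginv.e.toEmbedding).map g.e.toEmbedding = S := by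
    intro S
    ext c
    simp only [Finset.mem_map, Equiv.coe_toEmbedding]
    constructor
    · rintro ⟨d, ⟨a, ha, rfl⟩, rfl⟩
      rw [hg']; exact ha
    · intro hc
      exact ⟨ginv.e c, ⟨c, hc, rfl⟩, hg' c⟩
  have e2 : g.e '' (ginv.e '' R) = R := by
    ext c
    constructor
    · rintro ⟨_, ⟨d, hd, rfl⟩, rfl⟩
      rw [hg']; exact hd
    · intro hc
      exact ⟨ginv.e c, ⟨c, hc, rfl⟩, hg' c⟩
  rw [e1, e1, e2] at this
  simpa [hg'] using this

theorem Part.trans {C W : Set Cell} (h : Part C W ∅) (v : Cell) :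
    Part ((fun c => v + c) '' C) ((fun c => v + c) '' W) ∅ :=
  Part.iso (isoTrans v) h (isoTrans (-v)) (by intro c; simp [isoTrans]) (by intro c; simp [isoTrans])

theorem Part.negX {C W : Set Cell} (h : Part C W ∅) :
    Part ((fun c : Cell => (-c.1, c.2)) '' C) ((fun c : Cell => (-c.1, c.2)) '' W) ∅ :=
  Part.iso isoNegX h isoNegX (by intro c; simp [isoNegX]) (by intro c; simp [isoNegX])

theorem Part.negY {C W : Set Cell} (h : Part C W ∅) :
    Part ((fun c : Cell => (c.1, -c.2)) '' C) ((fun c : Cell => (c.1, -c.2)) '' W) ∅ :=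
  Part.iso isoNegY h isoNegY (by intro c; simp [isoNegY]) (by intro c; simp [isoNegY])

theorem Part.swap {C W : Set Cell} (h : Part C W ∅) :
    Part ((fun c : Cell => (c.2, c.1)) '' C) ((fun c : Cell => (c.2, c.1)) '' W) ∅ :=
  Part.iso isoSwap h isoSwap (by intro c; simp [isoSwap]) (by intro c; simp [isoSwap])


/-- the mask form of `Part` -/
def PartN (C W I : ℕ) : Prop := Part (cells C) (cells W) (cells I)

theorem PartN.merge {C W I C' W' I' : ℕ} (h : PartN C W I) (h' : PartN C' W' I') :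
    PartN (Nat.lor C C') (Nat.lor W W') (Nat.land I I') := by
  unfold PartN
  rw [cells_lor, cells_lor, cells_land]
  exact Part.merge h h'

theorem PartN.reply {C W I : ℕ} (h : PartN C W I) (hI : Nat.lor I C = C) (x : ℕ) :
    PartN (Nat.xor (Nat.lor C (Nat.shiftLeft 1 x)) (Nat.shiftLeft 1 x))
      (Nat.lor W (Nat.shiftLeft 1 x)) (Nat.lor W (Nat.shiftLeft 1 x)) := by
  have h1 : Part (cells C) (cells W) ∅ := Part.finish h (cells_subset_of_lor hI)
  have h2 := h1.reply (cellOf x)
  refine h2.mono (cells_diff C x) ?_ ?_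
  · rw [cells_lor, cells_bit]
  · rw [cells_lor, cells_bit]

theorem PartN.finish {C W I : ℕ} (h : PartN C W I) (hI : Nat.lor I C = C) : PartN C W 0 := by
  unfold PartN
  rw [cells_zero]
  exact Part.finish h (cells_subset_of_lor hI)

/-- conditional form of `PartN` -/
def CP (C W I : ℕ) : Prop := HC W → PartN C W I

theorem CP.merge {C W I C' W' I' : ℕ} (h : CP C W I) (h' : CP C' W' I') :
    CP (Nat.lor C C') (Nat.lor W W') (Nat.land I I') :=
  fun hc => (h hc.left).merge (h' hc.right)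

theorem CP.reply {C W I : ℕ} (h : CP C W I) (hI : Nat.lor I C = C) (x : ℕ) :
    CP (Nat.xor (Nat.lor C (Nat.shiftLeft (nat_lit 1) x)) (Nat.shiftLeft (nat_lit 1) x))
      (Nat.lor W (Nat.shiftLeft (nat_lit 1) x)) (Nat.lor W (Nat.shiftLeft (nat_lit 1) x)) :=
  fun hc => (h hc.left).reply hI x

theorem CP.copy {S0 s : ℕ} (h : CopyMask S0) :
    CP (Nat.shiftLeft S0 s) (Nat.shiftLeft S0 s) 0 := by
  intro hc
  obtain ⟨⟨t0, R, hR, h1⟩, n, hn, h2⟩ := h
  have h3 := hc (n + s) (testBit_shl h2)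
  obtain ⟨T, hT, hT2⟩ := copy_of S0 s t0 R hR h1 (by omega)
  unfold PartN
  rw [cells_zero]
  exact Part.copy hT hT2
theorem cp_tS (t : ℕ) : CP (Nat.xor (tS t) (tY t)) (tS t) (tS t) := by
  have h := CP.copy (s := Nat.land t (nat_lit 1023)) (copyMask_tM t)
  have h2 := h.reply (zero_lor' _) (Nat.land (Nat.shiftRight t (nat_lit 10)) (nat_lit 1023))
  have e : tS t = Nat.lor (Nat.shiftLeft (tM t) (Nat.land t (nat_lit 1023)))
      (Nat.shiftLeft (nat_lit 1) (Nat.land (Nat.shiftRight t (nat_lit 10)) (nat_lit 1023))) := by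
    unfold tS tY
    exact lor_comm' _ _
  rw [e]
  exact h2

/-- all entries of the stack are correct -/
def StkOK (s : Stk) : Prop :=
  Stk.rec (motive := fun _ => Prop) True (fun C W I _ r => CP C W I ∧ r) s

theorem StkOK.cons {C W I : ℕ} {r : Stk} (h : CP C W I) (hr : StkOK r) :
    StkOK (Stk.cons C W I r) := ⟨h, hr⟩

theorem StkOK.nil : StkOK Stk.nil := trivial

def ContOK (ih : Cont) : Prop := ∀ p st, StkOK st → StkOK (ih p st)

theorem bsel_ok {b : Bool} {x y : Stk} (hx : b = true → StkOK x) (hy : StkOK y) :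
    StkOK (bsel b x y) := by
  cases b
  · exact hy
  · exact hx rfl

theorem beq_lor {I C : ℕ} (h : Nat.beq (Nat.lor I C) C = true) : Nat.lor I C = C :=
  Nat.eq_of_beq_eq_true h

theorem stF_ok {ih : Cont} (hih : ContOK ih) (p q : ℕ) (st : Stk) (h : StkOK st) :
    StkOK (stF ih p q st) := by
  cases st with
  | nil => exact StkOK.nil
  | cons C W I rest =>
    change StkOK (stF1 ih p q C W I rest)
    unfold stF1
    refine bsel_ok (fun hb => ?_) StkOK.nil
    refine hih _ _ (StkOK.cons ?_ h.2)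
    exact (CP.reply h.1 (beq_lor hb) _).merge (cp_tS _)

theorem stD_ok {ih : Cont} (hih : ContOK ih) (p q : ℕ) (st : Stk) (h : StkOK st) :
    StkOK (stD ih p q st) :=
  hih _ _ (StkOK.cons ((cp_tS _).merge (cp_tS _)) h)

theorem stT_ok {ih : Cont} (hih : ContOK ih) (p q : ℕ) (st : Stk) (h : StkOK st) :
    StkOK (stT ih p q st) :=
  hih _ _ (StkOK.cons (cp_tS _) h)

theorem stMg_ok {ih : Cont} (hih : ContOK ih) (p C W I : ℕ) (rest : Stk) (h1 : CP C W I)
    (h : StkOK rest) : StkOK (stMg ih p C W I rest) := by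
  cases rest with
  | nil => exact StkOK.nil
  | cons C2 W2 I2 rest2 => exact hih _ _ (StkOK.cons (h1.merge h.1) h.2)

theorem stM_ok {ih : Cont} (hih : ContOK ih) (p : ℕ) (st : Stk) (h : StkOK st) :
    StkOK (stM ih p st) := by
  cases st with
  | nil => exact StkOK.nil
  | cons C W I rest => exact stMg_ok hih p C W I rest h.1 h.2

theorem stP_ok {ih : Cont} (hih : ContOK ih) (p x : ℕ) (st : Stk) (h : StkOK st) :
    StkOK (stP ih p x st) := by
  cases st with
  | nil => exact StkOK.nil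
  | cons C W I rest =>
    change StkOK (stP1 ih p x C W I rest)
    unfold stP1
    refine bsel_ok (fun hb => ?_) StkOK.nil
    exact stMg_ok hih _ _ _ _ _ (CP.reply h.1 (beq_lor hb) x) h.2

theorem stR_ok {ih : Cont} (hih : ContOK ih) (p x : ℕ) (st : Stk) (h : StkOK st) :
    StkOK (stR ih p x st) := by
  cases st with
  | nil => exact StkOK.nil
  | cons C W I rest =>
    change StkOK (stR1 ih p x C W I rest)
    unfold stR1
    refine bsel_ok (fun hb => ?_) StkOK.nil
    exact hih _ _ (StkOK.cons (CP.reply h.1 (beq_lor hb) x) h.2)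

/-- all entries of the environment are correct -/
def EnvOK (e : Env) : Prop :=
  Env.rec (motive := fun _ => Prop) True (fun C W _ r => PartN C W 0 ∧ r) e

theorem EnvOK.nil : EnvOK Env.nil := trivial

theorem EnvOK.cons {C W : ℕ} {e : Env} (h : PartN C W 0) (he : EnvOK e) :
    EnvOK (Env.cons C W e) := ⟨h, he⟩

theorem stE_ok {env : Env} (he : EnvOK env) {ih : Cont} (hih : ContOK ih) (p : ℕ) (st : Stk)
    (h : StkOK st) (j : ℕ) : StkOK (stE env j ih p st) := by
  induction env generalizing j with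
  | nil => exact StkOK.nil
  | cons C W rest g =>
    change StkOK (bsel (Nat.beq j (nat_lit 0)) (ih p (Stk.cons C W (nat_lit 0) st))
      (stE rest (Nat.pred j) ih p st))
    refine bsel_ok (fun _ => ?_) (g he.2 _)
    exact hih _ _ (StkOK.cons (fun _ => he.1) h)

theorem cells_left (C I : ℕ) : cells C ⊆ cells (Nat.lor C I) := by
  rw [cells_lor]
  exact Set.subset_union_left

theorem stW_ok {ih : Cont} (hih : ContOK ih) (p : ℕ) (st : Stk) (h : StkOK st) :
    StkOK (stW ih p st) := by
  cases st with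
  | nil => exact StkOK.nil
  | cons C W I rest =>
    refine hih _ _ (StkOK.cons (fun hc => ?_) h.2)
    exact Part.mono (h.1 hc) (cells_left C I) (le_refl _) (le_refl _)

theorem step_ok {env : Env} (he : EnvOK env) {ih : Cont} (hih : ContOK ih) (q : ℕ) (st : Stk)
    (h : StkOK st) (op : ℕ) : StkOK (step env ih q st op) := by
  unfold step
  refine bsel_ok (fun _ => stF_ok hih _ _ _ h) ?_
  refine bsel_ok (fun _ => stD_ok hih _ _ _ h) ?_
  refine bsel_ok (fun _ => stP_ok hih _ _ _ h) ?_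
  unfold step2
  refine bsel_ok (fun _ => stR_ok hih _ _ _ h) ?_
  refine bsel_ok (fun _ => stM_ok hih _ _ h) ?_
  refine bsel_ok (fun _ => stT_ok hih _ _ _ h) ?_
  refine bsel_ok (fun _ => stE_ok he hih _ _ h _) ?_
  refine bsel_ok (fun _ => stW_ok hih _ _ h) StkOK.nil

theorem runW_ok {env : Env} (he : EnvOK env) (n : ℕ) : ContOK (runW env n) := by
  induction n with
  | zero => exact fun p st h => h
  | succ n ih => exact fun p st h => step_ok he ih _ _ h _

theorem runL_ok {env : Env} (he : EnvOK env) (l : List ℕ) (st : Stk) (h : StkOK st) :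
    StkOK (runL env l st) := by
  induction l generalizing st with
  | nil => exact h
  | cons w l ih => exact ih _ (runW_ok he _ _ _ h)

theorem fin_ok {C W : ℕ} {s : Stk} (hs : StkOK s) (h : fin C W s = true) : PartN C W 0 := by
  cases s with
  | nil => exact absurd h (by simp [fin])
  | cons C' W' I' rest =>
    obtain ⟨h1, h⟩ := bsel_true h
    obtain ⟨h2, h⟩ := bsel_true h
    obtain ⟨h3, h⟩ := bsel_true h
    obtain ⟨h4, h5⟩ := bsel_true h
    have e2 := Nat.eq_of_beq_eq_true h2
    have e3 := Nat.eq_of_beq_eq_true h3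
    subst e2
    subst e3
    exact (hs.1 (HC_of (Nat.eq_of_beq_eq_true h4) (Nat.eq_of_beq_eq_true h5))).finish (beq_lor h1)

theorem sound {env : Env} (he : EnvOK env) {l : List ℕ} {C W : ℕ}
    (h : check env l C W = true) : PartN C W 0 :=
  fin_ok (runL_ok he l Stk.nil StkOK.nil) h

theorem soundI {env : Env} (he : EnvOK env) {l : List ℕ} {C W I : ℕ}
    (h : checkI env l C W I = true) : PartN C W I := by
  have hs : StkOK (runL env l Stk.nil) := runL_ok he l Stk.nil StkOK.nil
  unfold checkI at h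
  revert hs h
  generalize runL env l Stk.nil = s
  intro h hs
  cases s with
  | nil => exact absurd h (by simp [finI])
  | cons C' W' I' rest =>
    obtain ⟨h1, h⟩ := bsel_true h
    obtain ⟨h2, h⟩ := bsel_true h
    obtain ⟨h3, h⟩ := bsel_true h
    obtain ⟨h4, h5⟩ := bsel_true h
    have e1 := Nat.eq_of_beq_eq_true h1
    have e2 := Nat.eq_of_beq_eq_true h2
    have e3 := Nat.eq_of_beq_eq_true h3
    subst e1
    subst e2
    subst e3
    exact hs.1 (HC_of (Nat.eq_of_beq_eq_true h4) (Nat.eq_of_beq_eq_true h5))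

theorem Part.gC {C W : Set Cell} (h : Part C W ∅) (A : ℕ) (s1 s2 s3 : Bool) :
    Part (gC A s1 s2 s3 '' C) (gC A s1 s2 s3 '' W) ∅ := by
  have hx : ∀ {C W : Set Cell}, Part C W ∅ →
      Part ((fun c : Cell => ((A : ℤ) - c.1, c.2)) '' C)
        ((fun c : Cell => ((A : ℤ) - c.1, c.2)) '' W) ∅ := by
    intro C W h
    have := (h.negX).trans ((A : ℤ), 0)
    rw [Set.image_image, Set.image_image] at this
    simpa [Prod.mk_add_mk, ← sub_eq_add_neg] using this
  have hy : ∀ {C W : Set Cell}, Part C W ∅ →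
      Part ((fun c : Cell => (c.1, (A : ℤ) - c.2)) '' C)
        ((fun c : Cell => (c.1, (A : ℤ) - c.2)) '' W) ∅ := by
    intro C W h
    have := (h.negY).trans (0, (A : ℤ))
    rw [Set.image_image, Set.image_image] at this
    simpa [Prod.mk_add_mk, ← sub_eq_add_neg] using this
  cases s1 <;> cases s2 <;> cases s3
  · have e : P062.gC A false false false = id := by funext c; rfl
    rw [e]; simpa using h
  · exact h.swap
  · exact hy h
  · have := (hy h).swap
    rw [Set.image_image, Set.image_image] at this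
    exact this
  · exact hx h
  · have := (hx h).swap
    rw [Set.image_image, Set.image_image] at this
    exact this
  · have := hy (hx h)
    rw [Set.image_image, Set.image_image] at this
    exact this
  · have := (hy (hx h)).swap
    rw [Set.image_image, Set.image_image, Set.image_image, Set.image_image] at this
    exact this

theorem sym {C W : ℕ} (h : PartN C W 0) (A : ℕ) (s1 s2 s3 : Bool) (LC LW : List ℕ) {C' W' : ℕ}
    (hc : chkSym A s1 s2 s3 LC LW C W C' W' = true) : PartN C' W' 0 := by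
  simp only [chkSym, Bool.and_eq_true, Nat.blt_eq] at hc
  obtain ⟨⟨⟨⟨⟨⟨hA, h1⟩, h2⟩, h3⟩, h4⟩, h5⟩, h6⟩ := hc
  have e3 := Nat.eq_of_beq_eq_true h3
  have e4 := Nat.eq_of_beq_eq_true h4
  have e5 := Nat.eq_of_beq_eq_true h5
  have e6 := Nat.eq_of_beq_eq_true h6
  subst e3
  subst e4
  subst e5
  subst e6
  unfold PartN at h ⊢
  rw [cells_zero] at h ⊢
  exact (h.gC A s1 s2 s3).mono (orB_image hA s1 s2 s3 h1) (orB_image hA s1 s2 s3 h2) (le_refl _)

/-- the final assembly -/
theorem MWR_of_PartN {x W : ℕ} (R : Set Cell) (h : PartN (Nat.shiftLeft 1 x) W 0)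
    (hx : cellOf x ∈ R) (hW : cells W ⊆ R) : MWR R ∅ ∅ := by
  refine MWR.step (cellOf x) hx (by simp) (by simp) (fun y hy _ => ?_)
  refine h.2 R ?_ hW {cellOf x} ∅ (by simp) ?_ (by simp) y (by simpa using hy) (by simp) ?_
  · rw [cells_bit]
    intro c hc
    rw [Set.mem_singleton_iff] at hc
    rw [hc]; exact hx
  · intro c hc
    rw [cells_bit] at hc
    simpa using hc
  · rw [cells_zero]
    exact id

end Vale.Agent.P062.FB
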