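import Vale.Agent.P062.Defs

/-! # P062: Snaky on a finite board -/

namespace Vale.Agent.P062

/-- The `19 × 19` board. -/
noncomputable def board19 : Finset Cell := (Finset.Icc (-9) 9) ×ˢ (Finset.Icc (-9) 9)

/-- Maker has a strategy that, against every legal play of Breaker on the whole of `ℤ²`, makes
legal claims inside `R` only, until after finitely many of them he owns every cell of some allowed
copy. -/
def MakerWinsInside (R : Finset Cell) : Prop :=
  ∃ σ : Strategy, ∀ b : ℕ → Cell, (∀ n, BreakerLegal σ b n) →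
    ∃ n : ℕ, (∀ k < n, MakerLegal σ b k ∧ makerClaim σ b k ∈ R) ∧
      ∃ T : Finset Cell, IsCopy T ∧ ∀ c ∈ T, ∃ k < n, makerClaim σ b k = c

/-- Some cell of `R` is still unclaimed right after Maker's claim number `n`. -/
def FreeCell (R : Finset Cell) (σ : Strategy) (b : ℕ → Cell) (n : ℕ) : Prop :=
  ∃ c ∈ R, (∀ k ≤ n, c ≠ makerClaim σ b k) ∧ ∀ k < n, c ≠ b k

/-- Maker wins the achievement game for Snaky on the finite board `R`, both players claiming cells
of `R` only: whenever a cell of `R` is free, Breaker claims a free cell of `R`, and Maker owns all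
cells of an allowed copy after `n` legal claims in `R`, with `2 n - 1 ≤ |R|`. -/
def MakerWinsOnBoard (R : Finset Cell) : Prop :=
  ∃ σ : Strategy, ∀ b : ℕ → Cell,
    (∀ n, FreeCell R σ b n → b n ∈ R ∧ BreakerLegal σ b n) →
    ∃ n : ℕ, 2 * n ≤ R.card + 1 ∧ (∀ k < n, MakerLegal σ b k ∧ makerClaim σ b k ∈ R) ∧
      ∃ T : Finset Cell, IsCopy T ∧ ∀ c ∈ T, ∃ k < n, makerClaim σ b k = c

end Vale.Agent.P062
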