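import Vale.Agent.P062.H880.Defs
import Vale.Agent.P062.H880.Cert

set_option linter.all false

/-! Maker wins Snaky on the 19 × 19 board. -/

namespace Vale.Agent.P062.FB

/-- the mask of the board `4 ≤ x, y ≤ 22` -/
def bd : ℕ := 706002143246642511286786599763483523372962344899121425463657799555485639656917405323448239438493781130413136852304154011067708322828978733665761905384679231007526252832695228980840691219801548360444032192333315653500928

theorem bd_spec : ∀ n < 1024, bd.testBit n = true →
    4 ≤ n % 32 ∧ n % 32 ≤ 22 ∧ 4 ≤ n / 32 ∧ n / 32 ≤ 22 := by decide +kernel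

theorem bd_lt : bd < 2 ^ 1024 := by decide +kernel

def boxS : Set Cell := {c | 4 ≤ c.1 ∧ c.1 ≤ 22 ∧ 4 ≤ c.2 ∧ c.2 ≤ 22}

theorem cells_bd : cells bd ⊆ boxS := by
  rintro c ⟨n, hn, rfl⟩
  have hlt : n < 1024 := by
    by_contra h
    have h1 : bd.testBit n = false := by
      apply Nat.testBit_lt_two_pow
      exact bd_lt.trans_le (Nat.pow_le_pow_right (by norm_num) (by omega))
    rw [h1] at hn
    exact absurd hn (by simp)
  obtain ⟨h1, h2, h3, h4⟩ := bd_spec n hlt hn
  simp only [boxS, cellOf, Set.mem_setOf_eq]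
  refine ⟨?_, ?_, ?_, ?_⟩ <;> exact_mod_cast (by assumption)

theorem mwr_box {x C W : ℕ} (h : PartN C W 0) (hC : Nat.beq C (Nat.shiftLeft 1 x) = true)
    (hW : Nat.beq (Nat.lor W bd) bd = true)
    (hx : Nat.testBit bd x = true) : MWR boxS ∅ ∅ := by
  rw [Nat.eq_of_beq_eq_true hC] at h
  refine MWR_of_PartN boxS h (cells_bd (mem_cells_cellOf.2 hx)) ?_
  exact (cells_subset_of_lor (Nat.eq_of_beq_eq_true hW)).trans cells_bd

theorem mwr : MWR boxS ∅ ∅ :=
  mwr_box (x := 429) Cert.L128 (by decide +kernel) (by decide +kernel) (by decide +kernel)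

theorem mwr19 : MWR (board19 : Set Cell) ∅ ∅ := by
  have h := MWR.iso (isoTrans (-13, -13)) mwr
  rw [Finset.map_empty] at h
  have e : (isoTrans (-13, -13)).e '' boxS = (board19 : Set Cell) := by
    ext c
    constructor
    · rintro ⟨d, hd, rfl⟩
      simp only [boxS, Set.mem_setOf_eq] at hd
      simp only [board19, isoTrans, Equiv.coe_addLeft, Finset.coe_product, Set.mem_prod,
        Finset.coe_Icc, Set.mem_Icc, Prod.fst_add, Prod.snd_add]
      omega
    · intro hc
      simp only [board19, Finset.coe_product, Set.mem_prod, Finset.coe_Icc, Set.mem_Icc] at hc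
      refine ⟨(13, 13) + c, ?_, ?_⟩
      · simp only [boxS, Set.mem_setOf_eq, Prod.fst_add, Prod.snd_add]
        omega
      · simp only [isoTrans, Equiv.coe_addLeft]
        ext <;> simp
  rwa [e] at h

theorem inside19 : MakerWinsInside board19 := by
  obtain ⟨σ, hσ⟩ := exists_strat mwr19
  refine ⟨σ, fun b hb => ?_⟩
  obtain ⟨n, hn, T, hT, h2⟩ := hσ b (fun n => ⟨by simp, by simp, hb n⟩)
  refine ⟨n, fun k hk => ⟨(hn k hk).2.2.2, by exact_mod_cast (hn k hk).1⟩, T, hT, fun c hc => ?_⟩
  rcases h2 c hc with h | h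
  · simp at h
  · exact h

/-! ### from the infinite board to the finite board -/

theorem claim_congr (σ : Strategy) {b b' : ℕ → Cell} {n : ℕ} (h : ∀ k < n, b k = b' k) :
    makerClaim σ b n = makerClaim σ b' n := by
  unfold makerClaim
  congr 1
  apply List.map_congr_left
  intro k hk
  exact h k (List.mem_range.1 hk)

theorem legal_congr (σ : Strategy) {b b' : ℕ → Cell} {n : ℕ} (h : ∀ k ≤ n, b k = b' k)
    (hb : BreakerLegal σ b n) : BreakerLegal σ b' n := by
  refine ⟨fun k hk => ?_, fun k hk => ?_⟩
  · rw [← h n le_rfl, ← claim_congr σ (fun j hj => h j (by omega))]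
    exact hb.1 k hk
  · rw [← h n le_rfl, ← h k hk.le]
    exact hb.2 k hk

/-- a legal continuation of a legal initial play of Breaker -/
theorem exists_ext (σ : Strategy) (b : ℕ → Cell) (N : ℕ) (h : ∀ n < N, BreakerLegal σ b n) :
    ∃ b' : ℕ → Cell, (∀ n < N, b' n = b n) ∧ ∀ n, BreakerLegal σ b' n := by
  classical
  have hpick : ∀ l : List Cell, ∃ c : Cell, c ∉ l ∧ ∀ k ≤ l.length, c ≠ σ (l.take k) := by
    intro l
    obtain ⟨z, hz⟩ := exists_free (l.toFinset ∪ (Finset.range (l.length + 1)).image
      (fun k => σ (l.take k)))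
    rw [Finset.mem_union, not_or] at hz
    refine ⟨z, by simpa using hz.1, fun k hk he => hz.2 ?_⟩
    rw [Finset.mem_image]
    exact ⟨k, Finset.mem_range.2 (by omega), he.symm⟩
  choose pick hp1 hp2 using hpick
  let Ls : ℕ → List Cell := fun m => Nat.rec ((List.range N).map b) (fun _ l => l ++ [pick l]) m
  have hL0 : Ls 0 = (List.range N).map b := rfl
  have hLs : ∀ m, Ls (m + 1) = Ls m ++ [pick (Ls m)] := fun m => rfl
  let b' : ℕ → Cell := fun n => if n < N then b n else pick (Ls (n - N))
  have hb1 : ∀ n < N, b' n = b n := fun n hn => by simp [b', hn]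
  have hb2 : ∀ m, b' (N + m) = pick (Ls m) := fun m => by simp [b']
  have hmap : ∀ m, (List.range (N + m)).map b' = Ls m := by
    intro m
    induction m with
    | zero =>
      rw [hL0, add_zero]
      apply List.map_congr_left
      intro k hk
      exact hb1 k (List.mem_range.1 hk)
    | succ m ih =>
      rw [hLs, ← add_assoc, List.range_succ, List.map_append, ih]
      simp [hb2]
  refine ⟨b', hb1, fun n => ?_⟩
  by_cases hn : n < N
  · exact legal_congr σ (fun k hk => (hb1 k (by omega)).symm) (h n hn)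
  · obtain ⟨m, rfl⟩ : ∃ m, n = N + m := ⟨n - N, by omega⟩
    have hlen : (Ls m).length = N + m := by rw [← hmap]; simp
    refine ⟨fun k hk => ?_, fun k hk => ?_⟩
    · have h1 := hp2 (Ls m) k (by omega)
      rw [hb2]
      have h2 : makerClaim σ b' k = σ ((Ls m).take k) := by
        unfold makerClaim
        rw [← hmap m, ← List.map_take, List.take_range, min_eq_left hk]
      rw [h2]; exact h1
    · have h1 := hp1 (Ls m)
      rw [hb2]
      intro he
      apply h1
      rw [he, ← hmap m]
      exact List.mem_map.2 ⟨k, List.mem_range.2 hk, rfl⟩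

theorem onBoard_of_inside {R : Finset Cell} (h : MakerWinsInside R) : MakerWinsOnBoard R := by
  classical
  obtain ⟨σ, hσ⟩ := h
  refine ⟨σ, fun b hb => ?_⟩
  -- the key: a play that agrees with `b` as long as the board has free cells
  have key : ∃ n : ℕ, (∀ k < n, MakerLegal σ b k ∧ makerClaim σ b k ∈ R) ∧
      ∃ T : Finset Cell, IsCopy T ∧ ∀ c ∈ T, ∃ k < n, makerClaim σ b k = c := by
    by_cases hall : ∀ n, FreeCell R σ b n
    · exact hσ b (fun n => (hb n (hall n)).2)
    push Not at hall
    set N := Nat.find hall with hN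
    have hNs : ¬ FreeCell R σ b N := Nat.find_spec hall
    have hlt : ∀ n < N, BreakerLegal σ b n := by
      intro n hn
      have := Nat.find_min hall hn
      push Not at this
      exact (hb n this).2
    obtain ⟨b', hb1, hb2⟩ := exists_ext σ b N hlt
    obtain ⟨n, hn, T, hT, hTc⟩ := hσ b' hb2
    have hcl : ∀ k ≤ N, makerClaim σ b' k = makerClaim σ b k := fun k hk =>
      claim_congr σ (fun j hj => hb1 j (by omega))
    have hnN : n ≤ N + 1 := by
      by_contra hgt
      obtain ⟨h1, h2⟩ := hn (N + 1) (by omega)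
      apply hNs
      refine ⟨makerClaim σ b' (N + 1), h2, fun k hk => ?_, fun k hk => ?_⟩
      · rw [← hcl k hk]
        exact (h1 k (by omega)).1
      · rw [← hb1 k hk]
        exact (h1 k (by omega)).2
    refine ⟨n, fun k hk => ?_, T, hT, fun c hc => ?_⟩
    · obtain ⟨h1, h2⟩ := hn k hk
      rw [hcl k (by omega)] at h2
      refine ⟨fun j hj => ?_, h2⟩
      have h3 := h1 j hj
      rw [hcl k (by omega), hcl j (by omega), hb1 j (by omega)] at h3
      exact h3
    · obtain ⟨k, hk, hk2⟩ := hTc c hc
      exact ⟨k, hk, by rw [← hcl k (by omega)]; exact hk2⟩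
  obtain ⟨n, hn, T, hT, hTc⟩ := key
  refine ⟨n, ?_, hn, T, hT, hTc⟩
  rcases Nat.eq_zero_or_pos n with h0 | hpos
  · subst h0; simp
  obtain ⟨m, rfl⟩ : ∃ m, n = m + 1 := ⟨n - 1, by omega⟩
  -- Breaker's claims before Maker's last claim
  have hbk : ∀ k < m, b k ∈ R ∧ BreakerLegal σ b k := by
    intro k hk
    apply hb
    obtain ⟨h1, h2⟩ := hn (k + 1) (by omega)
    exact ⟨_, h2, fun j hj => (h1 j (by omega)).1, fun j hj => (h1 j (by omega)).2⟩
  have hA : ((Finset.range (m + 1)).image (makerClaim σ b)).card = m + 1 := by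
    rw [Finset.card_image_of_injOn, Finset.card_range]
    intro i hi j hj hij
    rw [Finset.coe_range, Set.mem_Iio] at hi hj
    rcases lt_trichotomy i j with h | h | h
    · exact absurd hij.symm ((hn j hj).1 i h).1
    · exact h
    · exact absurd hij ((hn i hi).1 j h).1
  have hB : ((Finset.range m).image b).card = m := by
    rw [Finset.card_image_of_injOn, Finset.card_range]
    intro i hi j hj hij
    rw [Finset.coe_range, Set.mem_Iio] at hi hj
    rcases lt_trichotomy i j with h | h | h
    · exact absurd hij.symm ((hbk j hj).2.2 i h)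
    · exact h
    · exact absurd hij ((hbk i hi).2.2 j h)
  have hd : Disjoint ((Finset.range (m + 1)).image (makerClaim σ b)) ((Finset.range m).image b) := by
    rw [Finset.disjoint_left]
    intro c hc1 hc2
    rw [Finset.mem_image] at hc1 hc2
    obtain ⟨i, hi, rfl⟩ := hc1
    obtain ⟨j, hj, hji⟩ := hc2
    rw [Finset.mem_range] at hi hj
    by_cases hij : i ≤ j
    · exact (hbk j hj).2.1 i hij hji
    · exact ((hn i hi).1 j (by omega)).2 hji.symm
  have hsub : ((Finset.range (m + 1)).image (makerClaim σ b)) ∪ ((Finset.range m).image b) ⊆ R := by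
    intro c hc
    rcases Finset.mem_union.1 hc with hc | hc
    · obtain ⟨i, hi, rfl⟩ := Finset.mem_image.1 hc
      exact (hn i (Finset.mem_range.1 hi)).2
    · obtain ⟨i, hi, rfl⟩ := Finset.mem_image.1 hc
      exact (hbk i (Finset.mem_range.1 hi)).1
  have := Finset.card_le_card hsub
  rw [Finset.card_union_of_disjoint hd, hA, hB] at this
  omega

theorem card19 : board19.card = 361 := by
  simp [board19, Finset.card_product]

end Vale.Agent.P062.FB
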